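import Vale.Agent.P275OS.Jet
import Vale.Agent.P275MB.Res
import Vale.Agent.P275KR.Zd
import Vale.Agent.P275GC.Ox

/-!
# P275, block OPST0 (helper93): stability is open at `λ = 0`
-/

set_option linter.all false

open scoped Matrix.Norms.Operator Topology ComplexOrder ContDiff
open Filter Set Matrix Complex Metric MeasureTheory
open Vale.Agent.P281Z.Hm Vale.Agent.P275GC Vale.Agent.P275GC.At Vale.Agent.P275MO
open Vale.Agent.P275NA hiding Stab Hom
open Vale.Agent.P275HK Vale.Agent.P275MB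
open Vale.Agent.P275DG (met_of ex_fac)

noncomputable section

namespace Vale.Agent.P275OS

variable {C : Type} [TopologicalSpace C] [T2Space C] {n : ℕ} {A : At C} {l : Cy A ℂ}
  {i j : Fin A.N} {w : ℂ} {x : C} {z : Dat C A.N n} {g : Cy A (Mn n)} {h : Fm A (Mn n)}

/-- the metric `h` moved to the cocycle `g` -/
def mv (A : At C) (h : Fm A (Mn n)) (g : Cy A (Mn n)) : Fm A (Mn n) := fun i w =>
  ∑ j, A.φ j i w • ((g j i (A.tr i j w))ᴴ * h j (A.tr i j w) * g j i (A.tr i j w))

theorem mv_met {g' : Cy A (Mn n)} (hh : A.MtM ∞ g' h) (hg : A.Cc g) : A.MtM ∞ g (mv A h g) where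
  sm i := ContDiffOn.sum fun j _ => cd_φ_smul (m := ⊤) fun z a =>
    have b := hol_cd ((hg.an (tr_mem a)).comp (an_tr a))
    cd_mul (cd_mul (cd_ct b) ((hh.sm.at (tr_ball a) j).comp z (hol_cd (an_tr a)))) b
  pos i z a := by
    obtain ⟨j, b, c⟩ := ex_unit a i
    have p : ∀ {j}, z ∈ A.O i j → ((g j i (A.tr i j z))ᴴ * h j (A.tr i j z) *
        g j i (A.tr i j z)).PosDef := fun b => (hh.pos _ _ (tr_ball b)).conjTranspose_mul_mul_same
      (mulVec_injective_iff_isUnit.2 ((isUnit_iff_isUnit_det _).2 (hg.det_ne (tr_mem b)).isUnit))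
    rw [mv, ← Finset.add_sum_erase _ _ (Finset.mem_univ j)]
    refine ((p b).smul (φ_pos b c)).add_posSemidef (posSemidef_sum _ fun k _ => ?_)
    by_cases d : z ∈ A.O i k
    exacts [(p d).posSemidef.smul φ_nonneg, by rw [φ_not a d, zero_smul]; exact .zero]
  tr i j z a := by
    rw [mv, mv, Finset.mul_sum, Finset.sum_mul]
    refine Finset.sum_congr rfl fun k _ => ?_
    rw [← fn_φ k i j z a]
    by_cases b : z ∈ A.O i k
    · rw [tr_tr a, hg.mul k i j _ (tr_mem b) (tr_O b a), tr_inv b, conjTranspose_mul]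
      simp only [Matrix.mul_smul, Matrix.smul_mul, Matrix.mul_assoc]
    · rw [φ_not a.1 b, zero_smul, zero_smul, Matrix.mul_zero, Matrix.zero_mul]

theorem mv_self (hh : A.MtM ∞ g h) (a : w ∈ ball (0 : ℂ) A.R) : mv A h g i w = h i w := by
  rw [← one_smul ℝ (h i w), ← sum_φ (A := A) i w, Finset.sum_smul]
  refine Finset.sum_congr rfl fun k _ => ?_
  by_cases b : w ∈ A.O i k
  · rw [← hh.tr k i _ (tr_mem b), tr_inv b]
  · rw [φ_not a b, zero_smul, zero_smul]

open Classical in
/-- the matrix of the connection times the section of `O(z.x)`, for `z.x` near `x` -/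
def th (A : At C) (x : C) (z : Dat C A.N n) : Fm A (Mn n) := fun i w =>
  if x ∈ (A.e i).source then fill A z i w else z.a i w

theorem th_off (a : w ∈ off A z.x i) : th A x z i w = A.sg x z.x i w • z.a i w := by
  unfold th At.sg
  split_ifs
  exacts [if_neg a.2, (one_smul _ _).symm]

theorem off_ev' (a : w ∈ ball (0 : ℂ) A.R) (x : C) : ∀ᶠ y in 𝓝[≠] w, y ∈ off A x i := by
  by_cases b : (A.e i).symm w = x
  · simpa only [← b, rinv a] using off_ev (map_tgt (i := i) a)
  · exact nhdsWithin_le_nhds ((off_open x i).mem_nhds ⟨a, b⟩)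

theorem th_df (G : Good A l z) (a : w ∈ off A z.x i) : DifferentiableAt ℂ (th A x z i) w := by
  have b := (off_open z.x i).mem_nhds a
  refine (DifferentiableAt.smul (c := A.sg x z.x i) ?_
    ((G.hol i).differentiableAt b)).congr_of_eventuallyEq (eventually_of_mem b fun _ => th_off)
  unfold At.sg
  split_ifs <;> fun_prop

theorem th_df' (G : Good A l z) (a : w ∈ ball (0 : ℂ) A.R)
    (b : x ∉ (A.e i).source → (A.e i).symm w ≠ z.x) : DifferentiableAt ℂ (th A x z i) w := by
  by_cases c : (A.e i).symm w = z.x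
  swap
  · exact th_df G ⟨a, c⟩
  have d : x ∈ (A.e i).source := by_contra fun k => b k c
  refine (analyticAt_of_differentiable_on_punctured_nhds_of_continuousAt
    ((off_ev' a _).mono fun _ => th_df G) (continuousAt_iff_punctured_nhds.2 ?_)).differentiableAt
  have e := G.pole i (c ▸ map_tgt a)
  rw [show A.e i z.x = w by rw [← c, rinv a]] at e
  rw [th, if_pos d, fill, if_pos c]
  exact e.congr' ((off_ev' a z.x).mono fun y k => by rw [th_off k, sg_mem d, ← c, rinv a])

theorem th_hig (G : Good A l z) (h0 : z.lam = 0) :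
    Hig A (fun i j w => A.ox z.x z.x i j w * A.d i j w) z.g (th A z.x z) := by
  have H : A.Hl (th A z.x z) := fun i w a =>
    (th_df' G a fun b c => b (c ▸ map_tgt a)).differentiableWithinAt
  refine ⟨G.cc, H, fun i j w a => tendsto_nhds_unique_of_eventuallyEq (l := 𝓝[≠] w)
    (((H.an a.1 i).mul (G.cc.an a)).continuousAt.mono_left nhdsWithin_le_nhds)
    (((((A.cc_ox _).an a).mul (an_d a)).smul ((G.cc.an a).mul ((H.an (tr_ball a) j).comp
      (an_tr a)))).continuousAt.mono_left nhdsWithin_le_nhds) ?_⟩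
  filter_upwards [off_ev' a.1 z.x, nhdsWithin_le_nhds (O_nhds a)] with y b c
  have e := Good.law' G c b.2
  simp only [h0, zero_smul, add_zero, zero_mul, mul_zero] at e
  simp only [Pi.mul_apply, Pi.smul_apply', Function.comp, th_off b, th_off (off_tr c b.2),
    Matrix.smul_mul, Matrix.mul_smul, e, smul_smul, A.sec_sg z.x i j y c, smul_eq_mul]
  congr 1
  ring

theorem inv_mat {k : ℕ} {S : Fm A (Submodule ℂ (Fin n → ℂ))} {u : ℂ → Mr n k} (H : InvC A z S)
    (a : w ∈ off A z.x i) (hu : FrAt (S i) u w) :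
    ∃ Q : Mn k, z.lam • dz u w + z.a i w * u w = u w * Q := ex_fac fun v => by
  have b := an_mulVec hu.an (analyticAt_const (v := v))
  have := H i w a _ b (hu.rg.mono fun y e => e ▸ LinearMap.mem_range_self (u y).mulVecLin v)
  rwa [← P275HK.dz_hol b.differentiableAt, dz, wd_mulVec (hol_df hu.an) (differentiableAt_const _),
    wd_const, mulVec_zero, add_zero, mulVec_mulVec, ← smul_mulVec, ← add_mulVec,
    ← hu.rg.self_of_nhds] at this

section fam

variable {T : Type} [TopologicalSpace T] {F : T → Dat C A.N n} {t : T} (f : FamOn A l F univ)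
include f

theorem j_mv (hh : A.MtM ∞ g h) (a : w ∈ ball (0 : ℂ) A.R) :
    J t w 2 fun s => mv A h (F s).g i := j_sum _ fun j => by
  by_cases b : w ∈ A.O i j
  swap
  · exact (j_fix contDiffAt_const).congr ((ev2 (ev_φ a b)).mono fun _ e => by rw [e, zero_smul])
  have G : J t w 2 fun s y => (F s).g j i (A.tr i j y) := Hf.j ⟨(ev2 (O_nhds b)).mono fun p c =>
    (((f.good _ trivial).cc.an (tr_mem c)).comp (an_tr c)).differentiableAt,
    eventually_of_mem (O_nhds b) fun y c => ((f.g j i).continuousAt (prod_mem_nhds univ_mem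
      (O_nhds (tr_mem c)))).comp_of_eq (continuousAt_fst.prodMk
        ((an_tr c).continuousAt.comp_of_eq continuousAt_snd rfl)) rfl⟩
  exact (j_fix (((sm_φ j).at a i).of_le ENat.LEInfty.out)).cmp (· • ·)
    (((G.comp (an_ct analyticAt_id)).mul (j_fix (((hh.sm.at (tr_ball b) j).of_le
      ENat.LEInfty.out).comp w (hol_cd (an_tr b))))).mul G) (analyticAt_fst.smul analyticAt_snd)

theorem cx (t : T) : ContinuousAt (fun s => (F s).x) t := f.x.continuousAt univ_mem

theorem ev_off (a : w ∈ off A (F t).x i) : ∀ᶠ p in 𝓝 (t, w), p.2 ∈ off A (F p.1).x i :=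
  (ev2 (isOpen_ball.mem_nhds a.1)).and ((Tendsto.prodMk_nhds (f := 𝓝 (t, w))
    ((contAt_symm (i := i) a.1).tendsto.comp continuousAt_snd) ((cx f t).tendsto.comp
      continuousAt_fst)).eventually (isClosed_diagonal.isOpen_compl.mem_nhds a.2))

theorem j_sg (w : ℂ) : J t w 0 fun s => A.sg (F t).x (F s).x i := cont_sg (cx f t) id w

theorem j_th (a : w ∈ ball (0 : ℂ) A.R) : J t w 0 fun s => th A (F t).x (F s) i := by
  refine j_fill ?_ ((off_ev' (i := i) a (F t).x).mono fun y b => ?_)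
  · by_cases b : (F t).x ∈ (A.e i).source
    · exact (ev2 (isOpen_ball.mem_nhds a)).mono fun p c => th_df' (f.good _ trivial) c (absurd b)
    · exact (ev_off f ⟨a, fun c => b (c ▸ map_tgt a)⟩).mono fun p => th_df (f.good _ trivial)
  · exact ContinuousAt.congr ((j_sg f y).smul ((f.a i).continuousAt ((ev_off f b).mono fun _ c =>
      ⟨trivial, c⟩))) ((ev_off f b).mono fun _ c => (th_off c).symm)

theorem opst_univ [ConnectedSpace C] (ex : EX A) (fr : P275KR.FRM A) {d : ℤ} (hS : Std A l n d)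
    (h0 : (F t).lam = 0) (st : Stab A l (F t)) : ∀ᶠ s in 𝓝 t, Stab A l (F s) := by
  have G := f.good t trivial
  have n0 : 0 < n := zero_lt_two.trans_le hS.two
  have n1 : (0 : ℝ) < n := mod_cast n0
  have M := (A.cc_ox (F t).x).mt
  set q := A.mt (A.ox (F t).x (F t).x)
  have dg : A.degM (F t).g = d := (deg_congr G.cc.det hS.cc G.det).trans hS.deg
  obtain ⟨h, hh, he⟩ := ex n _ q _ _ n0 ⟨(A.cc_ox _).tens A.cc_d, M.sm, M.pos, fun i j w a => by
      rw [M.tr i j w a, map_mul]; ring⟩ (th_hig G h0) fun k S a b c e => by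
    rw [dg, ← hS.deg]
    refine st k S a b c fun i w m u _ v => ?_
    have := e i w m.1 _ v.self_of_nhds
    rw [th_off m, smul_mulVec, Submodule.smul_mem_iff _ (mt (sg_eq_zero m.1).1 m.2)] at this
    rwa [h0, zero_smul, zero_add]
  have v : 0 < A.int A.ρ := vol_pos
  have pi := Real.pi_pos
  set c := ec A (F t).g with hc
  set ε := Real.pi / (n * n * A.int A.ρ) with hε
  have e0 : 0 < ε := by positivity
  let H : T → Fm A (Mn n) := fun s => mv A h (F s).g
  let μ : Fin A.N → T → ℂ → ℂ := fun i s w => (√(q i w) : ℝ) * (A.sg (F t).x (F s).x i w * (F s).lam)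
  let b : Fin A.N → T → ℂ → Mn n := fun i s w =>
    ((√(q i w) : ℝ) : ℂ) • th A (F t).x (F s) i w - μ i s w • cn (H s i) w
  let Y : Fin A.N → T → ℂ → Mn n := fun i s w => hk (H s i) (b i s) w - ((c * A.ρ i w : ℝ) : ℂ) • 1
  have key : ∀ᶠ s in 𝓝 t, ∀ i, ∀ w ∈ closedBall (0 : ℂ) 1,
      ‖μ i s w‖ ≤ 1 ∧ nq (H s i w) (H s i w) (Y i s w) ≤ (ε * A.ρ i w) ^ 2 := by
    refine eventually_all.2 fun i => (isCompact_closedBall 0 1).eventually_forall_of_forall_eventually
      fun w m => ?_
    have a := A.unit_sub m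
    have e1 : H t i =ᶠ[𝓝 w] h i := eventually_of_mem (isOpen_ball.mem_nhds a) fun _ => mv_self hh
    have j1 : J t w 2 fun s => H s i := j_mv f hh a
    have d1 : (H t i w).det ≠ 0 := pd_ne ((mv_met hh G.cc).pos i w a)
    have r1 : ContinuousAt (fun p : T × ℂ => A.ρ i p.2) (t, w) :=
      (sm_ρ.ct.at a i).comp_of_eq continuousAt_snd rfl
    have q1 : ContinuousAt (fun p : T × ℂ => ((√(q i p.2) : ℝ) : ℂ)) (t, w) :=
      continuous_ofReal.continuousAt.comp ((M.sm.ct.at a i).comp_of_eq continuousAt_snd rfl).sqrt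
    have m1 : J t w 0 (μ i) := q1.mul ((j_sg f w).c0.mul
      ((f.lam.continuousAt univ_mem).comp_of_eq continuousAt_fst rfl))
    have b1 : J t w 0 (b i) := (q1.smul (j_th f a)).sub (m1.smul (j1.mono.cn d1))
    have a1 := j1.mono.mono.ad d1 b1
    have y1 : J t w 0 (Y i) := ((j1.cv d1).add ((b1.mul a1).sub (a1.mul b1))).sub
      ((continuous_ofReal.continuousAt.comp (continuousAt_const.mul r1)).smul continuousAt_const)
    have m0 : μ i t w = 0 := by simp only [μ, h0, mul_zero]
    have y0 : Y i t w = 0 := by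
      rw [← sub_eq_zero.2 (he i w a)]
      simp only [Y, b, HK, hk, sa, m0, zero_smul, sub_zero, cv_congr e1, e1.self_of_nhds]
    refine (m1.norm.eventually_le_const (by simp [m0])).and (ContinuousAt.eventually_lt
      (((j1.mono.mono.ad d1 y1).mul y1).comp (Φ := fun X => (trace X).re)
        (an_re (an_trace analyticAt_id))) ((continuousAt_const.mul r1).pow 2) ?_ |>.mono
          fun _ => le_of_lt)
    simp only [y0, Matrix.mul_zero, trace_zero, zero_re]
    exact pow_pos (mul_pos e0 (ρ_pos a)) 2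
  refine key.mono fun s K k S k0 k1 hs hi => ?_
  have Gs := f.good s trivial
  have hm := mv_met hh Gs.cc
  obtain ⟨e1, -, ct, e2⟩ := (P275DG.deg A n _ _ Gs.cc hm).2.2.2.2 k S hs
  have e3 : A.int (cvS A k (H s) S) ≤ k * (c + ε) * A.int A.ρ := by
    rw [← int_mul (k * (c + ε)) A.ρ]
    refine int_mono_ae ct.in (Ct.in fun i => continuousOn_const.mul (sm_ρ.ct i)) fun i => ?_
    filter_upwards [(countable_singleton (A.e i (F s).x)).ae_notMem volume] with w a1 a2
    have a := mem_of_le (A := A) a2.le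
    have o : w ∈ off A (F s).x i := ⟨a, fun e => a1 (by rw [← e, rinv a]; rfl)⟩
    obtain ⟨u, hu⟩ := hs.fr i w a
    obtain ⟨Q, hQ⟩ := inv_mat hi o hu
    obtain ⟨K1, K2⟩ := K i w (mem_closedBall_zero_iff.2 a2.le)
    have p := hm.pos i w a
    have p' := p.conjTranspose_mul_mul_same hu.inj
    have K3 := (le_abs_self _).trans ((((nrm (Fin k) (Fin n)).2 _ _ (u w) 0 _ _ p' p
      (mul_pos e0 (ρ_pos a)).le).2.2.2) K2)
    rw [pr_eq, nq, ad_gram p', trace_one, natCast_re, Fintype.card_fin] at K3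
    rw [e1 i w a u hu]
    refine (sff_lam (b := b i s) (c := (((√(q i w) : ℝ) : ℂ) * A.sg (F t).x (F s).x i w) • Q)
      (met_of hm a i) hu.an hu.inj K1 ?_).trans ?_
    · simp only [b, μ, H, th_off o, Matrix.mul_smul, ← hQ, Matrix.sub_mul, Matrix.smul_mul]
      module
    · rw [show hk (mv A h (F s).g i) (b i s) w = Y i s w + _ from (sub_add_cancel _ _).symm,
        Matrix.mul_add, trace_add, add_re, Matrix.mul_smul, Matrix.mul_one, trace_smul,
        tr_pr p hu.inj, smul_eq_mul, re_ofReal_mul, natCast_re, Fintype.card_fin]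
      linarith
  obtain ⟨m, e4⟩ := P275KR.degS_int fr Gs.cc hs
  have e5 : (n : ℝ) * m < k * d + 1 := by
    have : (k : ℝ) / n < 1 := (div_lt_one n1).2 (mod_cast k1)
    calc _ ≤ n * (Real.pi⁻¹ * (k * (c + ε) * A.int A.ρ)) := by rw [← e4, ← e2]; gcongr
      _ = k * d + k / n := by rw [hc, hε, ec, dg]; field_simp
      _ < _ := by linarith
  have e6 : (n : ℤ) * m ≠ k * d := fun e => (Nat.le_of_dvd k0 (Int.natCast_dvd_natCast.1
    (hS.cop.dvd_of_dvd_mul_right ⟨m, e.symm⟩))).not_gt k1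
  rw [e4, hS.deg]
  exact_mod_cast (Int.lt_add_one_iff.1 (mod_cast e5)).lt_of_ne e6

end fam

theorem opst0 {C : Type} [TopologicalSpace C] {A : At C} {l : Cy A ℂ} {n : ℕ} {d : ℤ}
    (hS : Std A l n d) (ex : EX A) (fr : P275KR.FRM A) : OPST0 n A l := by
  intro T _ F V t f ht h0 st
  have := hS.t2
  have := hS.conn
  rw [nhdsWithin_eq_map_subtype_coe ht, eventually_map]
  exact opst_univ (t := (⟨t, ht⟩ : V))
    (FamOn.comp f continuous_subtype_val.continuousOn fun s _ => s.2) ex fr hS h0 st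

end Vale.Agent.P275OS
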