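import Vale.Agent.P275OS.Main
import Vale.Agent.P275NA.Main
import Vale.Agent.P275FR.Open
import Vale.Agent.P275KR.Frm

/-!
# P275, block OPST0 (helper93): the unconditional form
-/

namespace Vale.Agent.P275OS

open Vale.Agent.P275GC Vale.Agent.P275MO

variable {C : Type} [TopologicalSpace C]

/-- existence of Hermitian-Einstein metrics -/
theorem ex_ok [T2Space C] [ConnectedSpace C] (A : At C) : P275NA.EX A :=
  have := A.compactSpace
  P275NA.ex_of_open A (P275FR.opn A)

theorem opst0' {A : At C} {l : P275NA.Cy A ℂ} {n : ℕ} {d : ℤ} (hS : Std A l n d) : OPST0 n A l :=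
  have := hS.t2
  have := hS.conn
  opst0 hS (ex_ok A) (P275KR.frm A)

end Vale.Agent.P275OS
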