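import Vale.Agent.P275HK.Alg2
import Vale.Agent.P275HK.Hom
import Mathlib.Analysis.Complex.LocallyUniformLimit

/-!
# P275, block OPST0 (helper93): families whose derivatives are jointly continuous
-/

set_option linter.all false

open scoped Matrix.Norms.Operator Topology ComplexOrder ComplexConjugate Uniformity
open Filter Set Matrix Complex Metric
open Vale.Agent.P281Z.Hm Vale.Agent.P275NA Vale.Agent.P275HK

noncomputable section

namespace Vale.Agent.P275OS

variable {T : Type} [TopologicalSpace T] {t : T} {z : ℂ} {k : ℕ}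
  {E E' E'' : Type} [NormedAddCommGroup E] [NormedSpace ℝ E] [NormedAddCommGroup E']
  [NormedSpace ℝ E'] [NormedAddCommGroup E''] [NormedSpace ℝ E''] {f g : T → ℂ → E}

/-- the derivatives of order at most `k` in the second variable are continuous at `(t, z)` -/
def J (t : T) (z : ℂ) : ℕ → (T → ℂ → E) → Prop
  | 0, f => ContinuousAt (fun p : T × ℂ => f p.1 p.2) (t, z)
  | k + 1, f => ContinuousAt (fun p : T × ℂ => f p.1 p.2) (t, z) ∧
      (∀ᶠ p in 𝓝 (t, z), DifferentiableAt ℝ (f p.1) p.2) ∧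
      ∀ v, J t z k fun s w => fderiv ℝ (f s) w v

theorem J.c0 (h : J t z k f) : ContinuousAt (fun p : T × ℂ => f p.1 p.2) (t, z) := by
  cases k
  exacts [h, h.1]

theorem J.mono : ∀ {k : ℕ} {f : T → ℂ → E}, J t z (k + 1) f → J t z k f
  | 0, _, h => h.1
  | _ + 1, _, h => ⟨h.1, h.2.1, fun v => J.mono (h.2.2 v)⟩

theorem ev_snd {P : T × ℂ → Prop} (h : ∀ᶠ p in 𝓝 (t, z), P p) :
    ∀ᶠ p in 𝓝 (t, z), ∀ᶠ w in 𝓝 p.2, P (p.1, w) :=
  h.eventually_nhds.mono fun p a => (Continuous.prodMk_right p.1).continuousAt.eventually a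

theorem ev2 {P : ℂ → Prop} (h : ∀ᶠ w in 𝓝 z, P w) : ∀ᶠ p in 𝓝 (t, z), P p.2 :=
  continuousAt_snd.eventually h

theorem ev1 {P : T → Prop} (h : ∀ᶠ s in 𝓝 t, P s) : ∀ᶠ p in 𝓝 (t, z), P p.1 :=
  continuousAt_fst.eventually h

theorem J.congr : ∀ {k : ℕ} {f g : T → ℂ → E}, J t z k f →
    (∀ᶠ p in 𝓝 (t, z), f p.1 p.2 = g p.1 p.2) → J t z k g
  | 0, _, _, h, e => ContinuousAt.congr h e
  | _ + 1, _, _, h, e => ⟨h.1.congr e, (h.2.1.and (ev_snd e)).mono fun _ a =>
      a.1.congr_of_eventuallyEq (EventuallyEq.symm a.2), fun v => J.congr (h.2.2 v)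
        ((ev_snd e).mono fun _ a => by rw [EventuallyEq.fderiv_eq a])⟩

theorem J.prod : ∀ {k : ℕ} {f : T → ℂ → E} {g : T → ℂ → E'}, J t z k f → J t z k g →
    J t z k fun s w => (f s w, g s w)
  | 0, _, _, h, h' => ContinuousAt.prodMk h h'
  | _ + 1, _, _, h, h' => ⟨h.1.prodMk h'.1, (h.2.1.and h'.2.1).mono fun _ a => a.1.prodMk a.2,
      fun v => (J.prod (h.2.2 v) (h'.2.2 v)).congr ((h.2.1.and h'.2.1).mono fun _ a => by
        rw [a.1.fderiv_prodMk a.2]; rfl)⟩

theorem J.comp [CompleteSpace E'] : ∀ {k : ℕ} {E : Type} [NormedAddCommGroup E] [NormedSpace ℝ E]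
    {f : T → ℂ → E} {Φ : E → E'}, J t z k f → AnalyticAt ℝ Φ (f t z) →
    J t z k fun s w => Φ (f s w)
  | 0, _, _, _, _, _, h, a => a.continuousAt.comp_of_eq h rfl
  | _ + 1, E, _, _, f, Φ, h, a => by
    have e := h.2.1.and (h.1.eventually a.eventually_analyticAt)
    refine ⟨a.continuousAt.comp_of_eq h.1 rfl, e.mono fun _ b => b.2.differentiableAt.comp _ b.1,
      fun v => (J.comp (Φ := fun q : E × E => fderiv ℝ Φ q.1 q.2) (h.mono.prod (h.2.2 v))
        (((ContinuousLinearMap.id ℝ (E →L[ℝ] E')).analyticAt_bilinear _).comp₂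
          (a.fderiv.comp_of_eq analyticAt_fst rfl) analyticAt_snd)).congr (e.mono fun p b => ?_)⟩
    exact congrArg (· v) (fderiv_comp p.2 b.2.differentiableAt b.1).symm

theorem J.cmp [CompleteSpace E''] {g : T → ℂ → E'} (Φ : E → E' → E'') (h : J t z k f)
    (h' : J t z k g) (a : AnalyticAt ℝ (fun q : E × E' => Φ q.1 q.2) (f t z, g t z)) :
    J t z k fun s w => Φ (f s w) (g s w) := (h.prod h').comp a

theorem j_fix : ∀ {k : ℕ} {u : ℂ → E}, ContDiffAt ℝ k u z → J t z k fun _ => u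
  | 0, _, h => h.continuousAt.comp_of_eq continuousAt_snd rfl
  | k + 1, _, h => ⟨h.continuousAt.comp_of_eq continuousAt_snd rfl, ev2 ((h.eventually (by simp)).mono
      fun _ a => a.differentiableAt (by simp)), fun _ => j_fix
        ((h.fderiv_right (m := k) (by simp)).clm_apply contDiffAt_const)⟩

theorem j_sum [CompleteSpace E] {ι : Type} (S : Finset ι) {u : ι → T → ℂ → E}
    (h : ∀ i, J t z k (u i)) : J t z k fun s w => ∑ i ∈ S, u i s w := by
  classical
  induction S using Finset.induction_on with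
  | empty => simpa using j_fix contDiffAt_const
  | insert i S a b =>
    simpa only [Finset.sum_insert a] using
      (h i).cmp (· + ·) b (analyticAt_fst.add analyticAt_snd)

section cx

variable {F : Type} [NormedAddCommGroup F] [NormedSpace ℝ F] [NormedSpace ℂ F]
  [IsScalarTower ℝ ℂ F] [CompleteSpace F] {f : T → ℂ → F}

theorem J.dz (h : J t z (k + 1) f) : J t z k fun s => dz (f s) :=
  (h.2.2 1).cmp (fun a b => (2⁻¹ : ℂ) • (a - I • b)) (h.2.2 (I • 1))
    (analyticAt_fst.sub analyticAt_snd.fun_const_smul).fun_const_smul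

theorem J.db (h : J t z (k + 1) f) : J t z k fun s => db (f s) :=
  (h.2.2 1).cmp (fun a b => (2⁻¹ : ℂ) • (a + I • b)) (h.2.2 (I • 1))
    (analyticAt_fst.add analyticAt_snd.fun_const_smul).fun_const_smul

/-- holomorphic families -/
def Hf (t : T) (z : ℂ) (f : T → ℂ → F) : Prop :=
  (∀ᶠ p in 𝓝 (t, z), DifferentiableAt ℂ (f p.1) p.2) ∧ ∀ᶠ w in 𝓝 z, J t w 0 f

theorem ex_ball {P : T × ℂ → Prop} {Q : ℂ → Prop} (h : ∀ᶠ p in 𝓝 (t, z), P p)
    (h' : ∀ᶠ w in 𝓝 z, Q w) : ∃ r > 0, (∀ᶠ s in 𝓝 t, ∀ w ∈ closedBall z r, P (s, w)) ∧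
      ∀ w ∈ closedBall z r, Q w := by
  obtain ⟨N, a, U, b, c⟩ := mem_nhds_prod_iff.1 h
  obtain ⟨r, d, e⟩ := nhds_basis_closedBall.mem_iff.1 (inter_mem b h')
  exact ⟨r, d, eventually_of_mem a fun s k w m => c ⟨k, (e m).1⟩, fun w m => (e m).2⟩

theorem Hf.deriv (h : Hf t z f) : Hf t z fun s => deriv (f s) := by
  obtain ⟨r, a, b, c⟩ := ex_ball h.1 h.2
  have d : ∀ᶠ s in 𝓝 t, DifferentiableOn ℂ (f s) (ball z r) :=
    b.mono fun s k w m => (k w (ball_subset_closedBall m)).differentiableWithinAt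
  have m : ∀ {w}, w ∈ ball z r → Tendsto Prod.snd (𝓝 t ×ˢ 𝓝[ball z r] w) (𝓝 w) ∧
      𝓝 (t, w) = 𝓝 t ×ˢ 𝓝[ball z r] w := fun k =>
    ⟨tendsto_snd.mono_right nhdsWithin_le_nhds, by rw [isOpen_ball.nhdsWithin_eq k, nhds_prod_eq]⟩
  have e := tendstoLocallyUniformlyOn_iff_forall_tendsto.1 (TendstoLocallyUniformlyOn.deriv
    (tendstoLocallyUniformlyOn_iff_forall_tendsto.2 fun w k => (Tendsto.prodMk_nhds
      ((d.self_of_nhds.continuousOn.continuousAt (isOpen_ball.mem_nhds k)).tendsto.comp (m k).1)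
      ((m k).2 ▸ c w (ball_subset_closedBall k))).mono_right (nhds_le_uniformity _)) d isOpen_ball)
  refine ⟨((ev1 d).and (ev2 (ball_mem_nhds z a))).mono fun p k =>
    (k.1.deriv isOpen_ball).differentiableAt (isOpen_ball.mem_nhds k.2),
    eventually_of_mem (ball_mem_nhds z a) fun w k => ?_⟩
  have := (((d.self_of_nhds.deriv isOpen_ball).continuousOn.continuousAt
    (isOpen_ball.mem_nhds k)).tendsto.comp (m k).1).congr_uniformity (e w k)
  rwa [← (m k).2] at this

theorem Hf.j : ∀ {k : ℕ} {f : T → ℂ → F}, Hf t z f → J t z k f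
  | 0, _, h => h.2.self_of_nhds
  | _ + 1, _, h => ⟨h.2.self_of_nhds, h.1.mono fun _ a => a.restrictScalars ℝ, fun v =>
      ((Hf.j h.deriv).comp (Φ := fun a => v • a) analyticAt_id.fun_const_smul).congr
        (h.1.mono fun _ a => by
          rw [(a.hasDerivAt.hasFDerivAt.restrictScalars ℝ).fderiv]; rfl)⟩

/-- joint continuity across a point -/
theorem j_fill (h : ∀ᶠ p in 𝓝 (t, z), DifferentiableAt ℂ (f p.1) p.2)
    (h' : ∀ᶠ w in 𝓝[≠] z, J t w 0 f) : J t z 0 f := by
  obtain ⟨r, a, b, c⟩ := ex_ball h (eventually_nhdsWithin_iff.1 h')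
  have b0 := b.self_of_nhds
  have k : Tendsto (fun p : T × ℂ => f t p.2) (𝓝 (t, z)) (𝓝 (f t z)) :=
    (b0 z (mem_closedBall_self a.le)).continuousAt.comp_of_eq continuousAt_snd rfl
  refine k.congr_uniformity (uniformity_basis_dist_le.tendsto_right_iff.2 fun ε hε => ?_)
  have d : ∀ᶠ s in 𝓝 t, ∀ w ∈ sphere z r, ‖f t w - f s w‖ ≤ ε :=
    (isCompact_sphere z r).eventually_forall_of_forall_eventually fun w m => by
      have m' := sphere_subset_closedBall m
      refine (((b0 w m').continuousAt.comp_of_eq continuousAt_snd rfl).sub (c w m' fun e =>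
        a.ne' ?_)).norm.eventually_le_const (by simpa using hε)
      simpa [mem_singleton_iff.1 e] using m.symm
  filter_upwards [ev1 (b.and d), ev2 (closedBall_mem_nhds z a)] with p m m'
  rw [dist_eq_norm]
  refine norm_le_of_forall_mem_frontier_norm_le (f := fun w => f t w - f p.1 w) (U := ball z r)
    isBounded_ball (DifferentiableOn.diffContOnCl fun w e => ?_) (fun w e => m.2 w ?_) ?_
  · rw [closure_ball z a.ne'] at e
    exact ((b0 w e).sub (m.1 w e)).differentiableWithinAt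
  · rwa [frontier_ball z a.ne'] at e
  · rwa [closure_ball z a.ne']

end cx

variable {m n : Type} [Fintype m] [DecidableEq m] [Fintype n] [DecidableEq n]
  {h : T → ℂ → Mx n}

theorem J.mul {g : T → ℂ → Mx n} (a : J t z k h) (b : J t z k g) :
    J t z k fun s w => h s w * g s w := a.cmp (· * ·) b (an_mul analyticAt_fst analyticAt_snd)

theorem J.cn (a : J t z (k + 1) h) (d : (h t z).det ≠ 0) : J t z k fun s => cn (h s) :=
  (a.mono.comp (an_inv analyticAt_id d)).mul a.dz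

theorem J.cv (a : J t z (k + 2) h) (d : (h t z).det ≠ 0) : J t z k fun s => cv (h s) :=
  (a.cn d).db.comp analyticAt_id.neg

theorem J.ad {g : T → ℂ → Mx n} (a : J t z k h) (d : (h t z).det ≠ 0) (b : J t z k g) :
    J t z k fun s w => ad (h s w) (h s w) (g s w) :=
  ((a.comp (an_inv analyticAt_id d)).mul (b.comp (an_ct analyticAt_id))).mul a

theorem tr_pr_br {k : Mx m} {h : Mx n} {t : Matrix n m ℂ} (hh : h.PosDef) (e : k = tᴴ * h * t)
    (hk : k.PosDef) (b : Mx n) (c : Mx m) : (trace (pr h t * br h b)).re =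
      nq k h (ad h h b * t - t * ad k k c) - nq k h (b * t - t * c) := by
  have e1 : ad k h t * t = 1 := e ▸ ad_gram (e ▸ hk)
  have u := pd_det hh
  have e2 : ∀ x : Mx m, nq k h (t * x) = (trace (ad k k x * x)).re := fun x => by
    rw [nq, ad_mul k (pd_det hk), Matrix.mul_assoc, ← Matrix.mul_assoc (ad k h t), e1,
      Matrix.one_mul]
  rw [nq_sub hk hh, nq_sub hk hh, e2, e2, ad_ad hk hk, trace_mul_comm c, tr_ad_symm hk hh (t * c),
    conj_re, nq, nq, ad_mul k u, ad_mul k u, ad_mul k (pd_det hk), ad_ad hh hh, ← pr_eq, ← e, br,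
    Matrix.mul_sub, trace_sub, sub_re, Matrix.mul_assoc t, Matrix.mul_assoc t, trace_mul_comm t,
    trace_mul_comm t, trace_mul_comm (ad k k c * _), ← Matrix.mul_assoc _ t (ad k k c),
    trace_mul_comm _ (ad k k c), trace_mul_comm (b * t)]
  simp only [Matrix.mul_assoc]
  ring

/-- curvature of a subbundle which is invariant under `μ D + b` -/
theorem sff_lam {h b : ℂ → Mx n} {t : ℂ → Matrix n m ℂ} {c : Mx m} {μ : ℂ} (Hh : MetAt h z)
    (ht : AnalyticAt ℂ t z) (hi : Function.Injective (t z).mulVec) (hμ : ‖μ‖ ≤ 1)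
    (e : b z * t z + μ • (dz t z + cn h z * t z) = t z * c) :
    (trace (cv (fun x => (t x)ᴴ * h x * t x) z)).re ≤ (trace (pr (h z) (t z) * hk h b z)).re := by
  have Hk := MetAt.pd (met_gram Hh (hol_cd ht) hi)
  have p := MetAt.pd Hh
  have e1 := sff_eq (b := fun _ => 0) (c := 0) Hh ht hi (by simp)
  have e2 := tr_pr_br p rfl Hk (b z) (c - μ • cn (fun x => (t x)ᴴ * h x * t x) z)
  have e3 : b z * t z - t z * (c - μ • cn (fun x => (t x)ᴴ * h x * t x) z) =
      -(μ • dH (fun x => (t x)ᴴ * h x * t x) h t z) := by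
    rw [Matrix.mul_sub, ← e, dH, Matrix.mul_smul, smul_sub]
    abel
  have := mul_le_of_le_one_left (nq_nonneg Hk p (dH (fun x => (t x)ᴴ * h x * t x) h t z))
    (pow_le_one₀ (n := 2) (norm_nonneg μ) hμ)
  rw [e3, nq_neg, nq_smul] at e2
  simp only [hk, br, ad_zero, Matrix.zero_mul, Matrix.mul_zero, sub_self, add_zero, nq,
    trace_zero, zero_re] at e1
  rw [hk, Matrix.mul_add, trace_add, add_re, e2, ← e1, ← nq]
  linarith [nq_nonneg Hk p (ad (h z) (h z) (b z) * t z - t z * ad ((t z)ᴴ * h z * t z)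
    ((t z)ᴴ * h z * t z) (c - μ • cn (fun x => (t x)ᴴ * h x * t x) z))]

end Vale.Agent.P275OS
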